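import Vale.Agent.P275FM.Gr
import Mathlib.Algebra.Ring.GeomSum

/-!
# P275, the monodromy lowers the weights: the linear algebra
-/

open Set Function
open Vale.Agent.P275FM (IsGr Grd)

noncomputable section

namespace Vale.Agent.P275TE

variable {V V' : Type} [AddCommGroup V] [Module ℂ V] [AddCommGroup V'] [Module ℂ V']
  {u : ℕ → Module.End ℂ V} {u' : ℕ → Module.End ℂ V'} {U : Module.End ℂ V} {U' : Module.End ℂ V'}

/-- `a` has degree at least `m` -/
def Ge (u : ℕ → Module.End ℂ V) (m : ℤ) (a : V) : Prop := ∀ q : ℕ, (q : ℤ) < m → u q a = 0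

/-- the kernel of `(U - 1) ^ r` is graded, and on it `U - 1` raises the degree by two -/
def Lv (u : ℕ → Module.End ℂ V) (U : Module.End ℂ V) (r : ℕ) : Prop :=
  ∀ a, ((U - 1) ^ r) a = 0 → ∀ q, ((U - 1) ^ r) (u q a) = 0 ∧ Ge u (q + 2) (U (u q a) - u q a)

theorem Ge.mono {m m' : ℤ} {a : V} (h : Ge u m a) (e : m' ≤ m) : Ge u m' a :=
  fun q hq => h q (hq.trans_le e)

theorem Ge.add {m : ℤ} {a b : V} (h : Ge u m a) (h' : Ge u m b) : Ge u m (a + b) :=
  fun q hq => by rw [map_add, h q hq, h' q hq, add_zero]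

theorem Ge.sub {m : ℤ} {a b : V} (h : Ge u m a) (h' : Ge u m b) : Ge u m (a - b) :=
  fun q hq => by rw [map_sub, h q hq, h' q hq, sub_zero]

theorem Ge.smul {m : ℤ} {a : V} (c : ℂ) (h : Ge u m a) : Ge u m (c • a) :=
  fun q hq => by rw [map_smul, h q hq, smul_zero]

theorem ge_hom (h : IsGr u) (q : ℕ) (a : V) : Ge u q (u q a) :=
  fun j hj => by rw [h.mul, if_neg (by omega)]

theorem lv_zero : Lv u U 0 := fun a ha q => by
  obtain rfl : a = 0 := by simpa using ha
  exact ⟨by simp, fun j _ => by simp⟩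

theorem lv_one (h : IsGr u) (h' : IsGr u') {s : ℤ} {χ : V' →ₗ[ℂ] V} (g : Grd u' u s χ)
    (e : ∀ a, U a = a ↔ a ∈ range χ) : Lv u U 1 := fun a ha q => by
  simp only [pow_one, LinearMap.sub_apply, Module.End.one_apply, sub_eq_zero] at ha ⊢
  obtain ⟨x, rfl⟩ := (e a).1 ha
  obtain ⟨y, hy⟩ := g.range h' h x q
  have := (e (u q (χ x))).2 ⟨y, hy.symm⟩
  exact ⟨this, fun j _ => by rw [this, sub_self, map_zero]⟩

theorem lv_fin (h : IsGr u) {r : ℕ} (l : Lv u U r) (n : (U - 1) ^ r = 0) {m : ℤ} {a : V}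
    (ha : Ge u m a) : Ge u (m + 2) (U a - a) := fun j hj => by
  obtain ⟨N, hN⟩ := h.sum
  rw [← hN a, map_sum, ← Finset.sum_sub_distrib, map_sum]
  refine Finset.sum_eq_zero fun q _ => ?_
  by_cases e : (q : ℤ) < m
  · rw [ha q e, map_zero, sub_zero, map_zero]
  · exact (l a (by rw [n]; rfl) q).2 j (by omega)

theorem ex_pre {r : ℕ} {x : V} (hx : ((U - 1) ^ r) x = 0) :
    ∃ b, U b = x ∧ ((U - 1) ^ r) b = 0 := by
  have c1 : Commute ((U - 1) ^ r) (∑ i ∈ Finset.range r, (1 - U) ^ i) :=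
    Commute.sum_right _ _ _ fun i _ => ((((Commute.refl U).sub_left (Commute.one_left U)).symm.sub_left
      (Commute.one_left _) |> fun k => ((Commute.one_right (U - 1)).sub_right
        ((Commute.refl U).sub_left (Commute.one_left U)))).pow_pow r i)
  refine ⟨(∑ i ∈ Finset.range r, (1 - U) ^ i) x, ?_, ?_⟩
  · have := mul_neg_geom_sum (1 - U) r
    rw [sub_sub_cancel] at this
    rw [← Module.End.mul_apply, this, ← neg_sub U 1, neg_pow, LinearMap.sub_apply,
      Module.End.mul_apply, hx, map_zero, sub_zero, Module.End.one_apply]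
  · rw [← Module.End.mul_apply, c1.eq, Module.End.mul_apply, hx, map_zero]

theorem pow_comm_U (r : ℕ) (x : V) : ((U - 1) ^ r) (U x) = U (((U - 1) ^ r) x) := by
  rw [← Module.End.mul_apply, (((Commute.refl U).sub_left (Commute.one_left U)).pow_left r).eq,
    Module.End.mul_apply]

section step

variable {j k : V →ₗ[ℂ] V'} {c : ℂ} (e1 : ∀ a, U' (j a) = j (U a))
  (e2 : ∀ b, U' (k b) = k (U b) + c • j (U b))
include e1 e2

theorem sub_jk (a b : V) : (U' - 1) (j a + k b) = j ((U - 1) a + c • U b) + k ((U - 1) b) := by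
  simp only [LinearMap.sub_apply, Module.End.one_apply, map_add, map_sub, map_smul, e1, e2]
  abel

theorem pow_jk (r : ℕ) (a b : V) : ((U' - 1) ^ (r + 1)) (j a + k b) =
    j (((U - 1) ^ (r + 1)) a + ((r + 1 : ℂ) * c) • ((U - 1) ^ r) (U b)) +
      k (((U - 1) ^ (r + 1)) b) := by
  induction r with
  | zero => simpa using sub_jk e1 e2 a b
  | succ r ih =>
    have p : ∀ (m : ℕ) (x : V), (U - 1) (((U - 1) ^ m) x) = ((U - 1) ^ (m + 1)) x := fun m x => by
      rw [pow_succ', Module.End.mul_apply]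
    rw [pow_succ' _ (r + 1), Module.End.mul_apply, ih, sub_jk e1 e2, map_add (U - 1), map_smul, p, p, p,
      ← pow_comm_U, add_assoc, ← add_smul]
    congr 4
    push_cast
    ring

omit e1 e2 in
theorem ge_jk (h : IsGr u) (h' : IsGr u') {s : ℤ} (g1 : Grd u u' s j) (g2 : Grd u u' (s - 2) k)
    (inj : ∀ a b, j a + k b = 0 → a = 0 ∧ b = 0) {m : ℤ} {x y : V}
    (e : Ge u' (m + s) (j x + k y)) : Ge u m x ∧ Ge u (m + 2) y := by
  refine ⟨fun q hq => ?_, fun q hq => ?_⟩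
  · by_cases l : q + s < 0
    · exact (inj _ 0 (by rw [g1.neg_deg h' l, map_zero, add_zero])).1
    · have := e (q + s).toNat (by omega)
      rw [map_add, g1.comm h h' (q := q) (by omega), g2.comm h h' (q := q + 2) (by omega)] at this
      exact (inj _ _ this).1
  · by_cases l : q + (s - 2) < 0
    · exact (inj 0 _ (by rw [g2.neg_deg h' l, map_zero, add_zero])).2
    · have := e (q + (s - 2)).toNat (by omega)
      rw [map_add, g2.comm h h' (q := q) (by omega)] at this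
      obtain ⟨z, hz⟩ := g1.range h h' x (q + (s - 2)).toNat
      exact (inj _ _ (hz ▸ this)).2

theorem lv_succ (h : IsGr u) (h' : IsGr u') {s : ℤ} (g1 : Grd u u' s j) (g2 : Grd u u' (s - 2) k)
    (inj : ∀ a b, j a + k b = 0 → a = 0 ∧ b = 0) (hc : c ≠ 0) {r : ℕ} (l : Lv u' U' (r + 1)) :
    Lv u U (r + 2) := fun a ha q => by
  have c0 : (r + 1 : ℂ) * c ≠ 0 := mul_ne_zero (Nat.cast_add_one_ne_zero r) hc
  have p : ∀ (m : ℕ) (x : V), ((U - 1) ^ m) ((U - 1) x) = ((U - 1) ^ (m + 1)) x := fun m x => by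
    rw [pow_succ, Module.End.mul_apply]
  obtain ⟨b, b1, b2⟩ := ex_pre (U := U) (r := r + 1) (x := -((r + 1 : ℂ) * c)⁻¹ • (U - 1) a)
    (by rw [map_smul, p, ha, smul_zero])
  by_cases n : q + s < 0
  · rw [(inj (u q a) 0 (by rw [g1.neg_deg h' n, map_zero, add_zero])).1]
    exact ⟨map_zero _, fun i _ => by simp⟩
  obtain ⟨l1, l2⟩ := l (j a + k b) (by
    rw [pow_jk e1 e2, b2, b1, map_smul, p, smul_smul, mul_neg, mul_inv_cancel₀ c0, neg_smul,
      one_smul, add_neg_cancel, map_zero, map_zero, add_zero]) (q + s).toNat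
  rw [map_add (u' _), g1.comm h h' (q := q) (by omega), g2.comm h h' (q := q + 2) (by omega)]
    at l1 l2
  rw [pow_jk e1 e2] at l1
  obtain ⟨m1, m2⟩ := inj _ _ l1
  have l3 : Ge u' (q + 2 + s) ((U' - 1) (j (u q a) + k (u (q + 2) b))) := l2.mono (by omega)
  rw [sub_jk e1 e2] at l3
  obtain ⟨m3, m4⟩ := ge_jk h h' g1 g2 inj l3
  refine ⟨?_, ?_⟩
  · rw [pow_succ', Module.End.mul_apply, eq_neg_of_add_eq_zero_left m1, map_neg, map_smul,
      ← Module.End.mul_apply (U - 1), ← pow_succ', pow_comm_U, m2, map_zero, smul_zero, neg_zero]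
  · have := m3.sub (((m4.mono (by omega)).add ((ge_hom h (q + 2) b).mono (by omega))).smul c)
    simpa using this

end step

section tr

variable (γ : V ≃ₗ[ℂ] V')

/-- the transport of a grading -/
def tr (u' : ℕ → Module.End ℂ V') (q : ℕ) : Module.End ℂ V := γ.symm.conj (u' q)

theorem tr_apply (q : ℕ) (a : V) : γ (tr γ u' q a) = u' q (γ a) := γ.apply_symm_apply _

theorem gr_tr (h : IsGr u') : IsGr (tr γ u') := by
  refine ⟨fun i q x => γ.injective ?_, h.sum.imp fun N e x => γ.injective ?_⟩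
  · rw [tr_apply, tr_apply, h.mul, apply_ite γ, tr_apply, map_zero]
  · rw [map_sum, Finset.sum_congr rfl fun q _ => tr_apply γ q x, e]

theorem ge_tr {m : ℤ} {a : V} : Ge (tr γ u') m a ↔ Ge u' m (γ a) :=
  forall₂_congr fun q _ => by rw [← tr_apply, γ.map_eq_zero_iff]

theorem grd_tr {W W' : Type} [AddCommGroup W] [Module ℂ W] [AddCommGroup W'] [Module ℂ W']
    (δ : W ≃ₗ[ℂ] W') {w' : ℕ → Module.End ℂ W'} {s : ℤ} {φ : V →ₗ[ℂ] W} {φ' : V' →ₗ[ℂ] W'}
    (e : ∀ a, δ (φ a) = φ' (γ a)) (g : Grd u' w' s φ') : Grd (tr γ u') (tr δ w') s φ :=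
  fun q q' x hq => δ.injective (by rw [tr_apply, e, tr_apply, g q q' _ hq, map_zero])

theorem grd_tr_right {W : Type} [AddCommGroup W] [Module ℂ W] {w : ℕ → Module.End ℂ W} {s : ℤ}
    {φ' : W →ₗ[ℂ] V'} (g : Grd w u' s φ') : Grd w (tr γ u') s (γ.symm.toLinearMap ∘ₗ φ') :=
  fun q q' x hq => γ.injective (by
    rw [tr_apply, map_zero]
    exact (congrArg _ (γ.apply_symm_apply _)).trans (g q q' x hq))

end tr

end Vale.Agent.P275TE
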